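import Crest.Agent.Lib.Bc.CloLite.Check
import Crest.Agent.Lib.Bc.CloWeights7
/-!
# Row 163, `q = 3`, `lam < 0`: the checker at per-child degree `≤ 7`

The same `SeqFacts`, `chain_exit` as in `Check`, with the table `tb7` on the seven coordinates
`(s, μ ρ, μ² r, μ³ τ, μ⁴ A3, μ⁴ C2, μ⁵ A2C)`.
-/
open scoped BigOperators
open Crest.ProbabilityR.Broadcast
namespace Crest.Agent.Lib.Bc.CloLite
open Crest.Agent.Lib.Bc

/-- signs of the coordinates -/
def toL7 : List ℚ → List ℚ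
  | [a, b, c, d, e, f, g] => [a, -b, c, -d, e, f, -g]
  | _ => []

/-- the terms' coefficients -/
def kE7 : List (List ℚ) := CloStep.kL7.map toL7

/-- the lengths at degree 7 -/
def okLen7 (F : Fm) : Bool :=
  decide (F.pZ.length ≤ 8) && decide (F.pX.length ≤ 6) && decide (F.pW.length ≤ 5) && decide (F.pXX.length ≤ 4)

/-- the weights of a form -/
def wF7 (F : Fm) : List ℚ := CloStep.wL7 (toStep F)

/-- degree 7 -/
def tb7 : Tbl := ⟨fun F => (wF7 F).zip kE7, okLen7⟩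

/-- the coordinates of a law -/
noncomputable def vec7 (mu : ℝ) (M : SLaw 3) : List ℝ :=
  [momS M, mu * momC M, mu ^ 2 * momR M, mu ^ 3 * momT M, mu ^ 4 * momA3 M, mu ^ 4 * momC2 M, mu ^ 5 * momA2C M]

lemma all_len7 : ∀ k ∈ CloStep.kL7, ∃ a b c d e f g : ℚ, k = [a, b, c, d, e, f, g] := by
  intro k hk
  simp only [CloStep.kL7, List.mem_cons, List.not_mem_nil, or_false] at hk
  rcases hk with h | h | h | h | h | h | h | h | h | h | h | h | h | h | h | h | h | h | h | h | h | h | h | h | h | h |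
    h | h | h | h | h <;> exact ⟨_, _, _, _, _, _, _, h⟩

lemma dotW_momT7 (lam : ℝ) (M : SLaw 3) {k : List ℚ} (hk : k ∈ CloStep.kL7) :
    CloStep.dotW k (CloStep.momT7 lam M) = lam ^ 2 * dot (toL7 k) (vec7 (-lam) M) := by
  obtain ⟨a, b, c, d, e, f, g, rfl⟩ := all_len7 k hk
  simp only [CloStep.dotW, CloStep.momT7, toL7, vec7, dot_cons, dot_nil_left]
  push_cast
  ring

/-- the closed form as a `sumG` -/
lemma sumG_zip7 (m : Mdl) (v : List ℝ) (w : List ℚ) (kl : List (List ℚ)) :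
    sumG m (w.zip (kl.map toL7)) v = CloStep.dotW w (kl.map fun k => GG m (dot (toL7 k) v)) := by
  induction w generalizing kl with
  | nil => simp [sumG, CloStep.dotW]
  | cons x w ih =>
    cases kl with
    | nil => simp [sumG, CloStep.dotW]
    | cons k kl =>
      simp only [List.map_cons, List.zip_cons_cons, sumG, ih, CloStep.dotW]

/-- the one-step bound for a sequence of laws, degree 7 -/
def StepBound7 (m : Mdl) (mu : ℝ) (M : ℕ → SLaw 3) : Prop :=
  ∀ (n : ℕ) (f : (Fin 3 → ℝ) → ℝ), SLaw.BddS f → ∀ F : Fm, okLen7 F = true →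
    (∀ ℓ : Fin 3 → ℝ, (∀ i, 0 ≤ ℓ i) → Kz 3 f ℓ ≤ evF F ℓ) →
    (M (n + 1)).Φ f ≤ CloStep.dotW (wF7 F) (CloStep.kL7.map fun k => GG m (dot (toL7 k) (vec7 mu (M n))))

private lemma okLen7_parts {F : Fm} (h : okLen7 F = true) :
    F.pZ.length ≤ 8 ∧ F.pX.length ≤ 6 ∧ F.pW.length ≤ 5 ∧ F.pXX.length ≤ 4 := by
  simp only [okLen7, Bool.and_eq_true, decide_eq_true_eq] at h
  exact ⟨h.1.1.1, h.1.1.2, h.1.2, h.2⟩

theorem stepBound7_leaf (b : ℕ) (hb : 0 < b) (lam : ℝ) (hbl : (b : ℝ) * lam ^ 2 = 1)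
    (hch : ∀ i j : Fin 3, 0 ≤ channel 3 lam i j) :
    StepBound7 (.reg b) (-lam) (fun n => leafSL 3 b lam n (by norm_num) hch) := by
  intro n f hf F hF hle
  obtain ⟨h1, h2, h3, h4⟩ := okLen7_parts hF
  have h := CloStep.leaf_bound7 b lam hch n hf (toStep F) h1 h2 h3 h4
    (fun ℓ hℓ => by rw [evF_toStep]; exact hle ℓ hℓ)
  refine h.trans_eq ?_
  unfold wF7
  congr 1
  refine List.map_congr_left fun k hk => ?_
  have hb' : (b : ℝ) ≠ 0 := by exact_mod_cast hb.ne'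
  have e : lam ^ 2 = 1 / b := by field_simp; linarith
  rw [dotW_momT7 lam _ hk, GG_reg, e]
  congr 2
  ring

theorem stepBound7_gw (d : ℝ) (hd : 0 ≤ d) (lam : ℝ) (hdl : d * lam ^ 2 = 1)
    (hch : ∀ i j : Fin 3, 0 ≤ channel 3 lam i j) :
    StepBound7 .pois (-lam) (fun n => gwSL 3 lam d n hd (by norm_num) hch) := by
  intro n f hf F hF hle
  obtain ⟨h1, h2, h3, h4⟩ := okLen7_parts hF
  have h := CloStep.gw_bound7 lam d hd hch n hf (toStep F) h1 h2 h3 h4
    (fun ℓ hℓ => by rw [evF_toStep]; exact hle ℓ hℓ)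
  refine h.trans_eq ?_
  unfold wF7
  congr 1
  refine List.map_congr_left fun k hk => ?_
  rw [dotW_momT7 lam _ hk, GG_pois, ← mul_assoc, hdl, one_mul]

/-- the exponents of the regular tree are in the domain -/
lemma dom_reg7 {b : ℕ} (hb : 0 < b) {lam : ℝ} (hbl : (b : ℝ) * lam ^ 2 = 1)
    (hch : ∀ i j : Fin 3, 0 ≤ channel 3 lam i j) (M : SLaw 3)
    (k : List ℚ) (hk : k ∈ CloStep.kL7) : DomE (.reg b) (dot (toL7 k) (vec7 (-lam) M)) := by
  refine ⟨hb, ?_⟩
  set H := M.tilt lam hch with hH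
  have hb' : (b : ℝ) ≠ 0 := by exact_mod_cast hb.ne'
  have e : lam ^ 2 = 1 / b := by field_simp; linarith
  have e1 : dot (toL7 k) (vec7 (-lam) M) / b = CloStep.dotW k (CloStep.momT7 lam M) := by
    rw [dotW_momT7 lam _ hk, e]; ring
  have e2 : CloStep.dotW k (CloStep.momT7 lam M) = CloStep.dotW k (CloStep.mom7 H) := by
    rw [hH, CloStep.mom7_tilt]
  rw [e1, e2]
  have hmem : CloStep.dotW k (CloStep.mom7 H) ∈
      CloStep.kL7.map fun k => (fun x : ℝ => x) (CloStep.dotW k (CloStep.mom7 H)) :=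
    List.mem_map.2 ⟨k, hk, rfl⟩
  rw [← CloStep.alphas7_map H (fun x => x)] at hmem
  obtain ⟨a, _, ha⟩ := List.mem_map.1 hmem
  have := MM_nonneg H a.1 a.2.1 a.2.2
  linarith

section laws
variable {m : Mdl} {mu : ℝ} {M : ℕ → SLaw 3}

lemma seqFacts7_of (hS : StepBound7 m mu M) (hM : ∀ b, m = .reg b → 0 < b) (hanti : Antitone fun n => momR (M n))
    (hdom : ∀ n, ∀ k ∈ CloStep.kL7, DomE m (dot (toL7 k) (vec7 mu (M n)))) :
    SeqFacts tb7 m mu (fun n => momS (M n)) (fun n => momC (M n)) (fun n => momR (M n)) (fun n => momT (M n))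
      (fun n => momA3 (M n)) (fun n => momC2 (M n)) (fun n => momA2C (M n)) := by
  have hV : ∀ (F : Fm) (n : ℕ), sumG m (tb7.terms F)
      [momS (M n), mu * momC (M n), mu ^ 2 * momR (M n), mu ^ 3 * momT (M n), mu ^ 4 * momA3 (M n),
        mu ^ 4 * momC2 (M n), mu ^ 5 * momA2C (M n)] =
      CloStep.dotW (wF7 F) (CloStep.kL7.map fun k => GG m (dot (toL7 k) (vec7 mu (M n)))) := fun F n =>
    sumG_zip7 m _ _ _
  refine ⟨hM, hanti, fun n => momC_le_momS _, fun n => neg_half_momS_le_momC _, fun n => momR_le_momS _,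
    fun n => sq_momS_le_momR _, fun n => momT_le_momR _, fun n => neg_half_momR_le_momT _,
    fun n => momA3_nonneg _, fun n => momA3_le_momR _, fun n => momC2_nonneg _, fun n => momC2_le_momA3 _,
    fun n => momA2C_le_momA3 _, fun n => neg_half_momA3_le_momA2C _, ?_, ?_, ?_, ?_, ?_⟩
  · intro F n t ht
    obtain ⟨k, hk, hke⟩ := List.mem_map.1 (List.of_mem_zip ht).2
    rw [← hke]
    exact hdom n k hk
  · intro F hl hle n
    rw [hV]
    exact hS n _ BddS_aFn3 F hl hle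
  · intro F hl hle n
    rw [hV]
    exact hS n _ BddS_cFn F hl hle
  · intro F hl hle n
    rw [hV]
    have := hS n _ BddS_negc F hl hle
    have e : (M (n + 1)).Φ (fun x => - cFn x) = - (M (n + 1)).Φ cFn := by
      have h3 : 0 < 3 := by norm_num
      have := (M (n + 1)).Φ_const_mul h3 (-1) BddS_cFn
      simpa using this
    rw [e] at this
    exact this
  · intro F hl hle n
    rw [hV]
    exact hS n _ (SLaw.BddS.pow BddS_aFn3 2) F hl hle

end laws

/-- **Regular tree, degree 7**: a checked chain of cells. -/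
theorem leaf_chain7A {b : ℕ} (hb : 0 < b) {lam : ℝ} (hbl : (b : ℝ) * lam ^ 2 = 1)
    (hch : ∀ i j : Fin 3, 0 ≤ channel 3 lam i j) {μ1 μ2 r0 : ℚ}
    (h1 : (μ1 : ℝ) ≤ -lam) (h2 : -lam ≤ μ2) (h0 : (0 : ℝ) ≤ μ1) {cells : List CellD} {t t' : ℤ}
    (hr0 : ∃ N, momR (leafSL 3 b lam N (by norm_num) hch) ≤ r0)
    (hadj : chainAdj t cells = some t')
    (hall : AllOK (fun c => checkCell tb7 (.reg b) μ1 μ2 r0 c = true) cells)
    (hx : ∃ n, momS (leafSL 3 b lam n (by norm_num) hch) < qs t') :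
    ∃ n, momS (leafSL 3 b lam n (by norm_num) hch) < qs t :=
  chain_exit (seqFacts7_of (stepBound7_leaf b hb lam hbl hch) (fun _ h => by cases h; exact hb)
    (momR_leaf_antitone b lam hch) (fun _ k hk => dom_reg7 hb hbl hch _ k hk)) h1 h2 h0 (momS_leaf_antitone b lam (by norm_num) hch)
    (by
      obtain ⟨N, hN⟩ := hr0
      exact ⟨N, fun n hn => (momR_leaf_antitone b lam hch hn).trans hN⟩) hadj hall hx

/-- **Poisson tree, degree 7**: a checked chain of cells. -/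
theorem gw_chain7A {d : ℝ} (hd : 0 ≤ d) {lam : ℝ} (hdl : d * lam ^ 2 = 1)
    (hch : ∀ i j : Fin 3, 0 ≤ channel 3 lam i j) {μ1 μ2 r0 : ℚ}
    (h1 : (μ1 : ℝ) ≤ -lam) (h2 : -lam ≤ μ2) (h0 : (0 : ℝ) ≤ μ1) {cells : List CellD} {t t' : ℤ}
    (hr0 : ∃ N, momR (gwSL 3 lam d N hd (by norm_num) hch) ≤ r0)
    (hadj : chainAdj t cells = some t')
    (hall : AllOK (fun c => checkCell tb7 .pois μ1 μ2 r0 c = true) cells)
    (hx : ∃ n, momS (gwSL 3 lam d n hd (by norm_num) hch) < qs t') :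
    ∃ n, momS (gwSL 3 lam d n hd (by norm_num) hch) < qs t :=
  chain_exit (seqFacts7_of (stepBound7_gw d hd lam hdl hch) (fun _ h => by cases h)
    (momR_gw_antitone lam d hd hch) (fun _ _ _ => trivial)) h1 h2 h0 (momS_gw_antitone lam d hd (by norm_num) hch)
    (by
      obtain ⟨N, hN⟩ := hr0
      exact ⟨N, fun n hn => (momR_gw_antitone lam d hd hch hn).trans hN⟩) hadj hall hx

/-- **Regular tree, degree 7**: a checked chain of cells, `r0 = 1`. -/
theorem leaf_chain7 {b : ℕ} (hb : 0 < b) {lam : ℝ} (hbl : (b : ℝ) * lam ^ 2 = 1)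
    (hch : ∀ i j : Fin 3, 0 ≤ channel 3 lam i j) {μ1 μ2 : ℚ}
    (h1 : (μ1 : ℝ) ≤ -lam) (h2 : -lam ≤ μ2) (h0 : (0 : ℝ) ≤ μ1) {cells : List CellD} {t t' : ℤ}
    (hc : chainOK tb7 (.reg b) μ1 μ2 t cells = some t')
    (hx : ∃ n, momS (leafSL 3 b lam n (by norm_num) hch) < qs t') :
    ∃ n, momS (leafSL 3 b lam n (by norm_num) hch) < qs t :=
  leaf_chain7A hb hbl hch h1 h2 h0 ⟨0, momR_le_one _⟩ (chainOK_parts cells hc).1 (chainOK_parts cells hc).2 hx

/-- **Poisson tree, degree 7**: a checked chain of cells, `r0 = 1`. -/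
theorem gw_chain7 {d : ℝ} (hd : 0 ≤ d) {lam : ℝ} (hdl : d * lam ^ 2 = 1)
    (hch : ∀ i j : Fin 3, 0 ≤ channel 3 lam i j) {μ1 μ2 : ℚ}
    (h1 : (μ1 : ℝ) ≤ -lam) (h2 : -lam ≤ μ2) (h0 : (0 : ℝ) ≤ μ1) {cells : List CellD} {t t' : ℤ}
    (hc : chainOK tb7 .pois μ1 μ2 t cells = some t')
    (hx : ∃ n, momS (gwSL 3 lam d n hd (by norm_num) hch) < qs t') :
    ∃ n, momS (gwSL 3 lam d n hd (by norm_num) hch) < qs t :=
  gw_chain7A hd hdl hch h1 h2 h0 ⟨0, momR_le_one _⟩ (chainOK_parts cells hc).1 (chainOK_parts cells hc).2 hx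

end Crest.Agent.Lib.Bc.CloLite
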