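import Crest.Agent.Lib.Bc.CloLite.Wire2
import Crest.Agent.Lib.Bc.CloLite.Data.P0
import Crest.Agent.Lib.Bc.CloLite.Data.P1
import Crest.Agent.Lib.Bc.CloLite.Data.P2
import Crest.Agent.Lib.Bc.CloLite.Data.P3
import Crest.Agent.Lib.Bc.CloLite.Data.P4
import Crest.Agent.Lib.Bc.CloLite.Data.P5
import Crest.Agent.Lib.Bc.CloLite.Data.P6
import Crest.Agent.Lib.Bc.CloLite.Data.P7
import Crest.Agent.Lib.Bc.CloLite.Data.P8
import Crest.Agent.Lib.Bc.CloLite.Data.P9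
import Crest.Agent.Lib.Bc.CloLite.Data.P10
import Crest.Agent.Lib.Bc.CloLite.Data.P11
import Crest.Agent.Lib.Bc.CloLite.Data.P12
import Crest.Agent.Lib.Bc.CloLite.Data.P13
import Crest.Agent.Lib.Bc.CloLite.Data.P14
import Crest.Agent.Lib.Bc.CloLite.Data.P15
import Crest.Agent.Lib.Bc.CloLite.Data.P16
import Crest.Agent.Lib.Bc.CloLite.Data.P17
import Crest.Agent.Lib.Bc.CloLite.Data.P18
import Crest.Agent.Lib.Bc.CloLite.Data.P19
import Crest.Agent.Lib.Bc.CloLite.Data.P20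
import Crest.Agent.Lib.Bc.CloLite.Data.P21
import Crest.Agent.Lib.Bc.CloLite.Data.P22
import Crest.Agent.Lib.Bc.Pois.W33
import Crest.Agent.Lib.Bc.Pois.W34
import Crest.Agent.Lib.Bc.Pois.W35
import Crest.Agent.Lib.Bc.Pois.W36
import Crest.Agent.Lib.Bc.Pois.W37
import Crest.Agent.Lib.Bc.Pois.W38
import Crest.Agent.Lib.Bc.Pois.W39
import Crest.Agent.Lib.Bc.Pois.W40
import Crest.Agent.Lib.Bc.Pois.W41
import Crest.Agent.Lib.Bc.Pois.W42
import Crest.Agent.Lib.Bc.Pois.W43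
import Crest.Agent.Lib.Bc.Pois.W44
import Crest.Agent.Lib.Bc.Pois.W45
import Crest.Agent.Lib.Bc.Pois.W46
import Crest.Agent.Lib.Bc.Pois.W47
import Crest.Agent.Lib.Bc.Pois.W48
import Crest.Agent.Lib.Bc.Pois.W49
/-!
# Row 163, `q = 3`, `lam < 0`: the exits `s < 1/25` of the Poisson trees, `4 ≤ d ≤ 2845/100`

`mu = -lam ∈ [m1/100, m2/100]`: a chain of cells below a grid exit with bound on `r` (`d < 10000/33²`), from above `1`
(`d ≥ 10000/33²`).  Generated by `genP.py`.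
-/
set_option autoImplicit false
open Filter Topology
open Crest.ProbabilityR.Broadcast
namespace Crest.Agent.Lib.Bc.CloLite.FinalP
open Crest.Agent.Lib.Bc Crest.Agent.Lib.Bc.CloLite

theorem ExitPR.mono' {d₁ d₂ x y r r' : ℝ} (h : ExitPR d₁ d₂ x r) (hx : x ≤ y) (hr : r ≤ r') : ExitPR d₁ d₂ y r' :=
  fun d hd h1 h2 lam hl hdl hch => by
    obtain ⟨n, hn, hn2⟩ := h d hd h1 h2 lam hl hdl hch
    exact ⟨n, hn.trans_le hx, hn2.trans hr⟩

/-- the top of a chain above `1`, with the trivial bound on `r` -/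
theorem topPR (d₁ d₂ : ℝ) {x r : ℝ} (hx : 1 < x) (hr : 1 ≤ r) : ExitPR d₁ d₂ x r := fun d hd _ _ lam _ _ hch =>
  ⟨0, lt_of_le_of_lt (momS_le_one _) hx, (momR_le_one _).trans (by simpa using hr)⟩

theorem ExitP.sub {a b a' b' x : ℝ} (h : ExitP a b x) (ha : a ≤ a') (hb : b' ≤ b) : ExitP a' b' x :=
  fun d hd h1 h2 => h d hd (ha.trans h1) (h2.trans hb)

theorem exitP0 : ExitP ((10000 : ℝ) / 22 ^ 2) ((10000 : ℝ) / 18 ^ 2) (1 / 25) :=
  (exitP_chainA (by norm_num) (μ1 := Data.P0.mu1) (μ2 := Data.P0.mu2) (r0 := Data.P0.r0) (by norm_num [Data.P0.mu1]) (by norm_num [Data.P0.mu2])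
    (by norm_num [Data.P0.mu1]) (by norm_num [Data.P0.mu2]) Data.P0.chain Data.P0.all
    (topPR _ _ (by norm_num [Data.P0.t1, qs, Rat.divInt_eq_div]) (by norm_num [Data.P0.r0]))).mono
    (by norm_num [Data.P0.t0, qs, Rat.divInt_eq_div])

theorem exitP1 : ExitP ((10000 : ℝ) / 25 ^ 2) ((10000 : ℝ) / 22 ^ 2) (1 / 25) :=
  (exitP_chainA (by norm_num) (μ1 := Data.P1.mu1) (μ2 := Data.P1.mu2) (r0 := Data.P1.r0) (by norm_num [Data.P1.mu1]) (by norm_num [Data.P1.mu2])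
    (by norm_num [Data.P1.mu1]) (by norm_num [Data.P1.mu2]) Data.P1.chain Data.P1.all
    (topPR _ _ (by norm_num [Data.P1.t1, qs, Rat.divInt_eq_div]) (by norm_num [Data.P1.r0]))).mono
    (by norm_num [Data.P1.t0, qs, Rat.divInt_eq_div])

theorem exitP2 : ExitP ((10000 : ℝ) / 28 ^ 2) ((10000 : ℝ) / 25 ^ 2) (1 / 25) :=
  (exitP_chainA (by norm_num) (μ1 := Data.P2.mu1) (μ2 := Data.P2.mu2) (r0 := Data.P2.r0) (by norm_num [Data.P2.mu1]) (by norm_num [Data.P2.mu2])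
    (by norm_num [Data.P2.mu1]) (by norm_num [Data.P2.mu2]) Data.P2.chain Data.P2.all
    (topPR _ _ (by norm_num [Data.P2.t1, qs, Rat.divInt_eq_div]) (by norm_num [Data.P2.r0]))).mono
    (by norm_num [Data.P2.t0, qs, Rat.divInt_eq_div])

theorem exitP3 : ExitP ((10000 : ℝ) / 31 ^ 2) ((10000 : ℝ) / 28 ^ 2) (1 / 25) :=
  (exitP_chainA (by norm_num) (μ1 := Data.P3.mu1) (μ2 := Data.P3.mu2) (r0 := Data.P3.r0) (by norm_num [Data.P3.mu1]) (by norm_num [Data.P3.mu2])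
    (by norm_num [Data.P3.mu1]) (by norm_num [Data.P3.mu2]) Data.P3.chain Data.P3.all
    (topPR _ _ (by norm_num [Data.P3.t1, qs, Rat.divInt_eq_div]) (by norm_num [Data.P3.r0]))).mono
    (by norm_num [Data.P3.t0, qs, Rat.divInt_eq_div])

theorem exitP4 : ExitP ((10000 : ℝ) / 32 ^ 2) ((10000 : ℝ) / 31 ^ 2) (1 / 25) :=
  (exitP_chainA (by norm_num) (μ1 := Data.P4.mu1) (μ2 := Data.P4.mu2) (r0 := Data.P4.r0) (by norm_num [Data.P4.mu1]) (by norm_num [Data.P4.mu2])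
    (by norm_num [Data.P4.mu1]) (by norm_num [Data.P4.mu2]) Data.P4.chain Data.P4.all
    (topPR _ _ (by norm_num [Data.P4.t1, qs, Rat.divInt_eq_div]) (by norm_num [Data.P4.r0]))).mono
    (by norm_num [Data.P4.t0, qs, Rat.divInt_eq_div])

theorem exitP5 : ExitP ((10000 : ℝ) / 33 ^ 2) ((10000 : ℝ) / 32 ^ 2) (1 / 25) :=
  (exitP_chainA (by norm_num) (μ1 := Data.P5.mu1) (μ2 := Data.P5.mu2) (r0 := Data.P5.r0) (by norm_num [Data.P5.mu1]) (by norm_num [Data.P5.mu2])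
    (by norm_num [Data.P5.mu1]) (by norm_num [Data.P5.mu2]) Data.P5.chain Data.P5.all
    (topPR _ _ (by norm_num [Data.P5.t1, qs, Rat.divInt_eq_div]) (by norm_num [Data.P5.r0]))).mono
    (by norm_num [Data.P5.t0, qs, Rat.divInt_eq_div])

theorem exitP6 : ExitP ((10000 : ℝ) / 34 ^ 2) ((10000 : ℝ) / 33 ^ 2) (1 / 25) :=
  (exitP_chainA (by norm_num) (μ1 := Data.P6.mu1) (μ2 := Data.P6.mu2) (r0 := Data.P6.r0) (by norm_num [Data.P6.mu1]) (by norm_num [Data.P6.mu2])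
    (by norm_num [Data.P6.mu1]) (by norm_num [Data.P6.mu2]) Data.P6.chain Data.P6.all
    (ExitPR.mono' GridO.W33.exit (by norm_num [Data.P6.t1, qs, Rat.divInt_eq_div]) (by norm_num [Data.P6.r0]))).mono
    (by norm_num [Data.P6.t0, qs, Rat.divInt_eq_div])

theorem exitP7 : ExitP ((10000 : ℝ) / 35 ^ 2) ((10000 : ℝ) / 34 ^ 2) (1 / 25) :=
  (exitP_chainA (by norm_num) (μ1 := Data.P7.mu1) (μ2 := Data.P7.mu2) (r0 := Data.P7.r0) (by norm_num [Data.P7.mu1]) (by norm_num [Data.P7.mu2])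
    (by norm_num [Data.P7.mu1]) (by norm_num [Data.P7.mu2]) Data.P7.chain Data.P7.all
    (ExitPR.mono' GridO.W34.exit (by norm_num [Data.P7.t1, qs, Rat.divInt_eq_div]) (by norm_num [Data.P7.r0]))).mono
    (by norm_num [Data.P7.t0, qs, Rat.divInt_eq_div])

theorem exitP8 : ExitP ((10000 : ℝ) / 36 ^ 2) ((10000 : ℝ) / 35 ^ 2) (1 / 25) :=
  (exitP_chainA (by norm_num) (μ1 := Data.P8.mu1) (μ2 := Data.P8.mu2) (r0 := Data.P8.r0) (by norm_num [Data.P8.mu1]) (by norm_num [Data.P8.mu2])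
    (by norm_num [Data.P8.mu1]) (by norm_num [Data.P8.mu2]) Data.P8.chain Data.P8.all
    (ExitPR.mono' GridO.W35.exit (by norm_num [Data.P8.t1, qs, Rat.divInt_eq_div]) (by norm_num [Data.P8.r0]))).mono
    (by norm_num [Data.P8.t0, qs, Rat.divInt_eq_div])

theorem exitP9 : ExitP ((10000 : ℝ) / 37 ^ 2) ((10000 : ℝ) / 36 ^ 2) (1 / 25) :=
  (exitP_chainA (by norm_num) (μ1 := Data.P9.mu1) (μ2 := Data.P9.mu2) (r0 := Data.P9.r0) (by norm_num [Data.P9.mu1]) (by norm_num [Data.P9.mu2])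
    (by norm_num [Data.P9.mu1]) (by norm_num [Data.P9.mu2]) Data.P9.chain Data.P9.all
    (ExitPR.mono' GridO.W36.exit (by norm_num [Data.P9.t1, qs, Rat.divInt_eq_div]) (by norm_num [Data.P9.r0]))).mono
    (by norm_num [Data.P9.t0, qs, Rat.divInt_eq_div])

theorem exitP10 : ExitP ((10000 : ℝ) / 38 ^ 2) ((10000 : ℝ) / 37 ^ 2) (1 / 25) :=
  (exitP_chainA (by norm_num) (μ1 := Data.P10.mu1) (μ2 := Data.P10.mu2) (r0 := Data.P10.r0) (by norm_num [Data.P10.mu1]) (by norm_num [Data.P10.mu2])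
    (by norm_num [Data.P10.mu1]) (by norm_num [Data.P10.mu2]) Data.P10.chain Data.P10.all
    (ExitPR.mono' GridO.W37.exit (by norm_num [Data.P10.t1, qs, Rat.divInt_eq_div]) (by norm_num [Data.P10.r0]))).mono
    (by norm_num [Data.P10.t0, qs, Rat.divInt_eq_div])

theorem exitP11 : ExitP ((10000 : ℝ) / 39 ^ 2) ((10000 : ℝ) / 38 ^ 2) (1 / 25) :=
  (exitP_chainA (by norm_num) (μ1 := Data.P11.mu1) (μ2 := Data.P11.mu2) (r0 := Data.P11.r0) (by norm_num [Data.P11.mu1]) (by norm_num [Data.P11.mu2])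
    (by norm_num [Data.P11.mu1]) (by norm_num [Data.P11.mu2]) Data.P11.chain Data.P11.all
    (ExitPR.mono' GridO.W38.exit (by norm_num [Data.P11.t1, qs, Rat.divInt_eq_div]) (by norm_num [Data.P11.r0]))).mono
    (by norm_num [Data.P11.t0, qs, Rat.divInt_eq_div])

theorem exitP12 : ExitP ((10000 : ℝ) / 40 ^ 2) ((10000 : ℝ) / 39 ^ 2) (1 / 25) :=
  (exitP_chainA (by norm_num) (μ1 := Data.P12.mu1) (μ2 := Data.P12.mu2) (r0 := Data.P12.r0) (by norm_num [Data.P12.mu1]) (by norm_num [Data.P12.mu2])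
    (by norm_num [Data.P12.mu1]) (by norm_num [Data.P12.mu2]) Data.P12.chain Data.P12.all
    (ExitPR.mono' GridO.W39.exit (by norm_num [Data.P12.t1, qs, Rat.divInt_eq_div]) (by norm_num [Data.P12.r0]))).mono
    (by norm_num [Data.P12.t0, qs, Rat.divInt_eq_div])

theorem exitP13 : ExitP ((10000 : ℝ) / 41 ^ 2) ((10000 : ℝ) / 40 ^ 2) (1 / 25) :=
  (exitP_chainA (by norm_num) (μ1 := Data.P13.mu1) (μ2 := Data.P13.mu2) (r0 := Data.P13.r0) (by norm_num [Data.P13.mu1]) (by norm_num [Data.P13.mu2])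
    (by norm_num [Data.P13.mu1]) (by norm_num [Data.P13.mu2]) Data.P13.chain Data.P13.all
    (ExitPR.mono' GridO.W40.exit (by norm_num [Data.P13.t1, qs, Rat.divInt_eq_div]) (by norm_num [Data.P13.r0]))).mono
    (by norm_num [Data.P13.t0, qs, Rat.divInt_eq_div])

theorem exitP14 : ExitP ((10000 : ℝ) / 42 ^ 2) ((10000 : ℝ) / 41 ^ 2) (1 / 25) :=
  (exitP_chainA (by norm_num) (μ1 := Data.P14.mu1) (μ2 := Data.P14.mu2) (r0 := Data.P14.r0) (by norm_num [Data.P14.mu1]) (by norm_num [Data.P14.mu2])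
    (by norm_num [Data.P14.mu1]) (by norm_num [Data.P14.mu2]) Data.P14.chain Data.P14.all
    (ExitPR.mono' GridO.W41.exit (by norm_num [Data.P14.t1, qs, Rat.divInt_eq_div]) (by norm_num [Data.P14.r0]))).mono
    (by norm_num [Data.P14.t0, qs, Rat.divInt_eq_div])

theorem exitP15 : ExitP ((10000 : ℝ) / 43 ^ 2) ((10000 : ℝ) / 42 ^ 2) (1 / 25) :=
  (exitP_chainA (by norm_num) (μ1 := Data.P15.mu1) (μ2 := Data.P15.mu2) (r0 := Data.P15.r0) (by norm_num [Data.P15.mu1]) (by norm_num [Data.P15.mu2])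
    (by norm_num [Data.P15.mu1]) (by norm_num [Data.P15.mu2]) Data.P15.chain Data.P15.all
    (ExitPR.mono' GridO.W42.exit (by norm_num [Data.P15.t1, qs, Rat.divInt_eq_div]) (by norm_num [Data.P15.r0]))).mono
    (by norm_num [Data.P15.t0, qs, Rat.divInt_eq_div])

theorem exitP16 : ExitP ((10000 : ℝ) / 44 ^ 2) ((10000 : ℝ) / 43 ^ 2) (1 / 25) :=
  (exitP_chainA (by norm_num) (μ1 := Data.P16.mu1) (μ2 := Data.P16.mu2) (r0 := Data.P16.r0) (by norm_num [Data.P16.mu1]) (by norm_num [Data.P16.mu2])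
    (by norm_num [Data.P16.mu1]) (by norm_num [Data.P16.mu2]) Data.P16.chain Data.P16.all
    (ExitPR.mono' GridO.W43.exit (by norm_num [Data.P16.t1, qs, Rat.divInt_eq_div]) (by norm_num [Data.P16.r0]))).mono
    (by norm_num [Data.P16.t0, qs, Rat.divInt_eq_div])

theorem exitP17 : ExitP ((10000 : ℝ) / 45 ^ 2) ((10000 : ℝ) / 44 ^ 2) (1 / 25) :=
  (exitP_chainA (by norm_num) (μ1 := Data.P17.mu1) (μ2 := Data.P17.mu2) (r0 := Data.P17.r0) (by norm_num [Data.P17.mu1]) (by norm_num [Data.P17.mu2])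
    (by norm_num [Data.P17.mu1]) (by norm_num [Data.P17.mu2]) Data.P17.chain Data.P17.all
    (ExitPR.mono' GridO.W44.exit (by norm_num [Data.P17.t1, qs, Rat.divInt_eq_div]) (by norm_num [Data.P17.r0]))).mono
    (by norm_num [Data.P17.t0, qs, Rat.divInt_eq_div])

theorem exitP18 : ExitP ((10000 : ℝ) / 46 ^ 2) ((10000 : ℝ) / 45 ^ 2) (1 / 25) :=
  (exitP_chainA (by norm_num) (μ1 := Data.P18.mu1) (μ2 := Data.P18.mu2) (r0 := Data.P18.r0) (by norm_num [Data.P18.mu1]) (by norm_num [Data.P18.mu2])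
    (by norm_num [Data.P18.mu1]) (by norm_num [Data.P18.mu2]) Data.P18.chain Data.P18.all
    (ExitPR.mono' GridO.W45.exit (by norm_num [Data.P18.t1, qs, Rat.divInt_eq_div]) (by norm_num [Data.P18.r0]))).mono
    (by norm_num [Data.P18.t0, qs, Rat.divInt_eq_div])

theorem exitP19 : ExitP ((10000 : ℝ) / 47 ^ 2) ((10000 : ℝ) / 46 ^ 2) (1 / 25) :=
  (exitP_chainA (by norm_num) (μ1 := Data.P19.mu1) (μ2 := Data.P19.mu2) (r0 := Data.P19.r0) (by norm_num [Data.P19.mu1]) (by norm_num [Data.P19.mu2])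
    (by norm_num [Data.P19.mu1]) (by norm_num [Data.P19.mu2]) Data.P19.chain Data.P19.all
    (ExitPR.mono' GridO.W46.exit (by norm_num [Data.P19.t1, qs, Rat.divInt_eq_div]) (by norm_num [Data.P19.r0]))).mono
    (by norm_num [Data.P19.t0, qs, Rat.divInt_eq_div])

theorem exitP20 : ExitP ((10000 : ℝ) / 48 ^ 2) ((10000 : ℝ) / 47 ^ 2) (1 / 25) :=
  (exitP_chainA (by norm_num) (μ1 := Data.P20.mu1) (μ2 := Data.P20.mu2) (r0 := Data.P20.r0) (by norm_num [Data.P20.mu1]) (by norm_num [Data.P20.mu2])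
    (by norm_num [Data.P20.mu1]) (by norm_num [Data.P20.mu2]) Data.P20.chain Data.P20.all
    (ExitPR.mono' GridO.W47.exit (by norm_num [Data.P20.t1, qs, Rat.divInt_eq_div]) (by norm_num [Data.P20.r0]))).mono
    (by norm_num [Data.P20.t0, qs, Rat.divInt_eq_div])

theorem exitP21 : ExitP ((10000 : ℝ) / 49 ^ 2) ((10000 : ℝ) / 48 ^ 2) (1 / 25) :=
  (exitP_chainA (by norm_num) (μ1 := Data.P21.mu1) (μ2 := Data.P21.mu2) (r0 := Data.P21.r0) (by norm_num [Data.P21.mu1]) (by norm_num [Data.P21.mu2])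
    (by norm_num [Data.P21.mu1]) (by norm_num [Data.P21.mu2]) Data.P21.chain Data.P21.all
    (ExitPR.mono' GridO.W48.exit (by norm_num [Data.P21.t1, qs, Rat.divInt_eq_div]) (by norm_num [Data.P21.r0]))).mono
    (by norm_num [Data.P21.t0, qs, Rat.divInt_eq_div])

theorem exitP22 : ExitP ((10000 : ℝ) / 50 ^ 2) ((10000 : ℝ) / 49 ^ 2) (1 / 25) :=
  (exitP_chainA (by norm_num) (μ1 := Data.P22.mu1) (μ2 := Data.P22.mu2) (r0 := Data.P22.r0) (by norm_num [Data.P22.mu1]) (by norm_num [Data.P22.mu2])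
    (by norm_num [Data.P22.mu1]) (by norm_num [Data.P22.mu2]) Data.P22.chain Data.P22.all
    (ExitPR.mono' GridO.W49.exit (by norm_num [Data.P22.t1, qs, Rat.divInt_eq_div]) (by norm_num [Data.P22.r0]))).mono
    (by norm_num [Data.P22.t0, qs, Rat.divInt_eq_div])

/-- all the windows -/
theorem exitAll : ExitP ((10000 : ℝ) / 50 ^ 2) ((10000 : ℝ) / 18 ^ 2) (1 / 25) :=
  (exitP22).trans ((exitP21).trans ((exitP20).trans ((exitP19).trans ((exitP18).trans ((exitP17).trans ((exitP16).trans ((exitP15).trans ((exitP14).trans ((exitP13).trans ((exitP12).trans ((exitP11).trans ((exitP10).trans ((exitP9).trans ((exitP8).trans ((exitP7).trans ((exitP6).trans ((exitP5).trans ((exitP4).trans ((exitP3).trans ((exitP2).trans ((exitP1).trans (exitP0))))))))))))))))))))))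

/-- the exits of the Poisson trees, in the shape of `Neg3Assembly.S0244_of_exits` -/
theorem hxd : ∀ d : ℝ, ∀ hd4 : 4 ≤ d, d ≤ 2845 / 100 → ∀ lam : ℝ, lam < 0 → d * lam ^ 2 = 1 →
    ∀ hch : ∀ i j : Fin 3, 0 ≤ channel 3 lam i j,
    ∃ n, momS (gwSL 3 lam d n (by linarith) (by norm_num) hch) < 1 / 25 :=
  hxd_of (ExitP.sub exitAll (by norm_num) (by norm_num))

end Crest.Agent.Lib.Bc.CloLite.FinalP
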