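import Crest.Agent.Lib.Bc.CloLite.Bridge
/-!
# Row 163: chord and tangent bounds for the single-exponent function `GG` of `Bridge`

`GG (.reg b) E = (1+E/b)^b` on `E ≥ -b`, `GG .pois E = exp E` everywhere; both convex.

* `GG_le_line`: an affine function above `GG` at the two ends of an interval is above `GG` on it.
* `tangent_reg_le`, `tangent_pois_le`: lower bounds by tangents, without division by `b` on the `ℕ` side.
-/
open Set
namespace Crest.Agent.Lib.Bc.CloLite

/-- the domain of convexity of `GG` -/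
def GDom : Mdl → ℝ → Prop
  | .reg b, E => -(b : ℝ) ≤ E
  | .pois, _ => True

lemma GDom_reg (b : ℕ) (E : ℝ) : GDom (.reg b) E ↔ -(b : ℝ) ≤ E := Iff.rfl
lemma GDom_pois (E : ℝ) : GDom .pois E := trivial

/-- `x^b` is above its tangent, for `x, x₀ ≥ 0` -/
theorem pow_tangent_le (b : ℕ) {x x₀ : ℝ} (hx : 0 ≤ x) (hx₀ : 0 ≤ x₀) :
    x₀ ^ b + (b : ℝ) * x₀ ^ (b - 1) * (x - x₀) ≤ x ^ b := by
  induction b with
  | zero => simp
  | succ b ih =>
    rcases Nat.eq_zero_or_pos b with rfl | hb
    · simp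
    · obtain ⟨c, rfl⟩ : ∃ c, b = c + 1 := ⟨b - 1, by omega⟩
      simp only [Nat.add_sub_cancel] at ih ⊢
      have h1 := mul_le_mul_of_nonneg_left ih hx
      have h2 : 0 ≤ ((c + 1 : ℕ) : ℝ) * x₀ ^ c * (x - x₀) ^ 2 := by positivity
      push_cast at *
      have e : x ^ (c + 1 + 1) = x * x ^ (c + 1) := by ring
      rw [e]
      have e2 : x * (x₀ ^ (c + 1) + (c + 1) * x₀ ^ c * (x - x₀))
          = x₀ ^ (c + 1 + 1) + (c + 1 + 1) * x₀ ^ (c + 1) * (x - x₀) + (c + 1) * x₀ ^ c * (x - x₀) ^ 2 := by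
        ring
      rw [e2] at h1
      linarith

/-- Convexity on the domain. -/
theorem GG_convex_reg (b : ℕ) (hb : 0 < b) : ConvexOn ℝ (Ici (-(b : ℝ))) (GG (.reg b)) := by
  have hb' : (0 : ℝ) < b := by exact_mod_cast hb
  refine ⟨convex_Ici _, fun x hx y hy u v hu hv huv => ?_⟩
  have hx' : (0 : ℝ) ≤ 1 + x / b := by
    have : -(1 : ℝ) ≤ x / b := by
      rw [le_div_iff₀ hb']; simpa using hx
    linarith
  have hy' : (0 : ℝ) ≤ 1 + y / b := by
    have : -(1 : ℝ) ≤ y / b := by
      rw [le_div_iff₀ hb']; simpa using hy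
    linarith
  have h := (convexOn_pow b).2 (show 1 + x / b ∈ Ici (0 : ℝ) from hx') (show 1 + y / b ∈ Ici (0 : ℝ) from hy') hu hv huv
  simp only [smul_eq_mul] at h ⊢
  simp only [GG_reg]
  have e : 1 + (u * x + v * y) / b = u * (1 + x / b) + v * (1 + y / b) := by
    have : v = 1 - u := by linarith
    subst this
    field_simp
    ring
  rw [e]
  exact h

/-- **Line above at the two ends.** `GDom` of the lower end is enough. -/
theorem GG_le_line {m : Mdl} (hm : ∀ b, m = .reg b → 0 < b) {a c lo hi E : ℝ} (hlo : GDom m lo)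
    (h1 : lo ≤ E) (h2 : E ≤ hi) (hL1 : GG m lo ≤ a + c * lo) (hL2 : GG m hi ≤ a + c * hi) :
    GG m E ≤ a + c * E := by
  rcases eq_or_lt_of_le (h1.trans h2) with hEq | hlt
  · have : E = lo := by linarith
    rw [this]; exact hL1
  · have hd : 0 < hi - lo := by linarith
    set u := (hi - E) / (hi - lo) with hu
    set v := (E - lo) / (hi - lo) with hv
    have hu0 : 0 ≤ u := div_nonneg (by linarith) hd.le
    have hv0 : 0 ≤ v := div_nonneg (by linarith) hd.le
    have huv : u + v = 1 := by rw [hu, hv]; field_simp; ring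
    have hE : u * lo + v * hi = E := by rw [hu, hv]; field_simp; ring
    have key : GG m (u * lo + v * hi) ≤ u * GG m lo + v * GG m hi := by
      cases m with
      | reg b =>
        have h := (GG_convex_reg b (hm b rfl)).2 (show lo ∈ Ici (-(b : ℝ)) from hlo)
          (show hi ∈ Ici (-(b : ℝ)) from (show -(b : ℝ) ≤ lo from hlo).trans hlt.le) hu0 hv0 huv
        simpa [smul_eq_mul] using h
      | pois =>
        have h := convexOn_exp.2 (mem_univ lo) (mem_univ hi) hu0 hv0 huv
        simpa [smul_eq_mul, GG_pois] using h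
    rw [hE] at key
    have e : a + c * E = u * (a + c * lo) + v * (a + c * hi) := by
      rw [← hE]
      linear_combination (-a) * huv
    rw [e]
    nlinarith [mul_le_mul_of_nonneg_left hL1 hu0, mul_le_mul_of_nonneg_left hL2 hv0]

/-- Tangent from below, regular tree: with `x₀ = 1 + M/b`, `GG E ≥ x₀^b + x₀^(b-1) (E - M)`. -/
theorem tangent_reg_le (b : ℕ) (hb : 0 < b) {M E : ℝ} (hM : -(b : ℝ) ≤ M) (hE : -(b : ℝ) ≤ E) :
    (1 + M / b) ^ b + (1 + M / b) ^ (b - 1) * (E - M) ≤ GG (.reg b) E := by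
  have hb' : (0 : ℝ) < b := by exact_mod_cast hb
  have hx : (0 : ℝ) ≤ 1 + E / b := by
    have : -(1 : ℝ) ≤ E / b := by
      rw [le_div_iff₀ hb']; simpa using hE
    linarith
  have hx₀ : (0 : ℝ) ≤ 1 + M / b := by
    have : -(1 : ℝ) ≤ M / b := by
      rw [le_div_iff₀ hb']; simpa using hM
    linarith
  have h := pow_tangent_le b hx hx₀
  rw [GG_reg]
  refine le_trans (le_of_eq ?_) h
  have : (b : ℝ) * (1 + M / b) ^ (b - 1) * (1 + E / b - (1 + M / b))
      = (1 + M / b) ^ (b - 1) * (E - M) := by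
    field_simp
    ring
  rw [this]

/-- Tangent from below, Poisson tree: `exp E ≥ L (1 + E - M)` if `L ≤ exp M`, `1 + E - M ≥ 0`. -/
theorem tangent_pois_le {L M E : ℝ} (hL : L ≤ Real.exp M) (hE : 0 ≤ 1 + E - M) :
    L * (1 + E - M) ≤ GG .pois E := by
  rw [GG_pois]
  have h1 : 1 + E - M ≤ Real.exp (E - M) := by
    have := Real.add_one_le_exp (E - M)
    linarith
  calc L * (1 + E - M) ≤ Real.exp M * (1 + E - M) := mul_le_mul_of_nonneg_right hL hE
    _ ≤ Real.exp M * Real.exp (E - M) := mul_le_mul_of_nonneg_left h1 (Real.exp_pos _).le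
    _ = Real.exp E := by rw [← Real.exp_add]; congr 1; ring

end Crest.Agent.Lib.Bc.CloLite
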